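import Vale.Agent.P275M.S1
import Vale.Agent.P281Z.Hg.F1b
import Vale.Agent.P281Z.Hg.F2b

/-!
# P275, mixed Hodge block: the symbol of `d + d*` is of Clifford type (row SYM)
-/

open scoped Manifold ContDiff ComplexOrder Topology Matrix
open Filter
open Vale.Agent.P272.K Vale.Agent.P272.K.C2 Vale.Agent.P272.K.INT Vale.Agent.P299.IX
  Vale.Agent.P299.IX.Fock Vale.Agent.P299.H863 Vale.Agent.P281Z.Hg Vale.Agent.P281Z.Hg.Ws

noncomputable section

namespace Vale.Agent.P275M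

namespace Sym

theorem clif {n : ℕ} {P : Matrix (Fin n) (Fin n) ℂ} (hP : P.IsHermitian) (x : Fin n → ℂ) :
    (epsV x - iotV (star (P *ᵥ x)))ᴴ * lam P * (epsV x - iotV (star (P *ᵥ x))) =
      (star (P *ᵥ x) ⬝ᵥ x) • lam P := by
  have h1 : (iotV (star (P *ᵥ x)))ᴴ * lam P = lam P * epsV x := by
    rw [iotV_conjTranspose, star_star, lam_epsV]
  have h2 : (epsV x)ᴴ * lam P = lam P * iotV (star (P *ᵥ x)) := by
    have h3 := congrArg Matrix.conjTranspose h1
    rw [Matrix.conjTranspose_mul, Matrix.conjTranspose_mul, Matrix.conjTranspose_conjTranspose,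
      (lam_isHermitian hP).eq] at h3
    exact h3.symm
  have h4 := iotV_epsV (star (P *ᵥ x)) x
  rw [Matrix.conjTranspose_sub, Matrix.sub_mul, h1, h2, ← Matrix.mul_sub, Matrix.mul_assoc,
    Matrix.sub_mul, Matrix.mul_sub (iotV _), Matrix.mul_sub (epsV _), iotV_sq, epsV_sq, sub_zero,
    zero_sub, sub_neg_eq_add, h4, Matrix.mul_smul, Matrix.mul_one]

variable {d : ℕ}

theorem blk_pos {w : Matrix (Fin d) (Fin d) ℂ} (hw : w.PosDef) : (blk w⁻¹ w⁻¹ᵀ).PosDef := by
  have h := hw.inv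
  open scoped MatrixOrder in
  obtain ⟨a, ha⟩ := CStarAlgebra.nonneg_iff_eq_star_mul_self.mp h.posSemidef.nonneg
  have h3 : blk w⁻¹ w⁻¹ᵀ = (blk a aᴴᵀ)ᴴ * blk a aᴴᵀ := by
    rw [f1b.blk_ct, f1b.blk_mul, ha, Matrix.star_eq_conjTranspose, Matrix.transpose_mul]
    congr 2
    ext i j
    simp
  refine Matrix.PosSemidef.posDef_iff_isUnit ?_ |>.2 ?_
  · rw [h3]
    exact Matrix.posSemidef_conjTranspose_mul_self _
  · have h4 := (Matrix.isUnit_iff_isUnit_det _).1 h.isUnit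
    rw [Matrix.isUnit_iff_isUnit_det, f1b.blk_det, Matrix.det_transpose]
    exact h4.mul h4

theorem Lam_h (w : Matrix (Fin d) (Fin d) ℂ) (m : Fin d) :
    Lam w * eps (hl m) - eps (hl m) * Lam w = ∑ k, (-Complex.I * w⁻¹ k m) • iot (ah k) := by
  have h1 : ∀ j k : Fin d, iot (ah k) * iot (hl j) * eps (hl m) -
      eps (hl m) * (iot (ah k) * iot (hl j)) = if j = m then iot (ah k) else 0 := by
    intro j k
    have a1 := car (hl j) (hl m)
    have a2 := (car (ah k) (hl m)).trans (if_neg (F1bH.hl_ne m k).symm)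
    rw [Matrix.mul_assoc, eq_sub_of_add_eq a1, Matrix.mul_sub, ← Matrix.mul_assoc,
      eq_neg_of_add_eq_zero_left a2, ← Matrix.mul_assoc]
    by_cases h : j = m <;> simp [h, F1bH.hl_inj]
  simp only [Lam, Finset.sum_mul, Finset.mul_sum, Matrix.smul_mul, Matrix.mul_smul,
    ← Finset.sum_sub_distrib, ← smul_sub, h1]
  rw [Finset.sum_eq_single m]
  · simp
  · intro j _ h
    simp [h]
  · simp

theorem Lam_a (w : Matrix (Fin d) (Fin d) ℂ) (m : Fin d) :
    Lam w * eps (ah m) - eps (ah m) * Lam w = ∑ j, (Complex.I * w⁻¹ m j) • iot (hl j) := by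
  have h1 : ∀ j k : Fin d, iot (ah k) * iot (hl j) * eps (ah m) -
      eps (ah m) * (iot (ah k) * iot (hl j)) = if k = m then -iot (hl j) else 0 := by
    intro j k
    have a1 := car (ah k) (ah m)
    have a2 := (car (hl j) (ah m)).trans (if_neg (F1bH.hl_ne j m))
    rw [Matrix.mul_assoc, eq_neg_of_add_eq_zero_left a2, Matrix.mul_neg, ← Matrix.mul_assoc,
      eq_sub_of_add_eq a1, ← Matrix.mul_assoc, Matrix.sub_mul]
    by_cases h : k = m <;> simp [h, F1bH.ah_inj]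
  simp only [Lam, Finset.sum_mul, Finset.mul_sum, Matrix.smul_mul, Matrix.mul_smul,
    ← Finset.sum_sub_distrib, ← smul_sub, h1]
  refine Finset.sum_congr rfl fun j _ => ?_
  rw [Finset.sum_eq_single m]
  · simp
  · intro k _ h
    simp [h]
  · simp

/-- the symbol of `∂` -/
def sA (c : Fin (d + d)) : Fm d := ∑ k ∈ Finset.range (d + 1), pm d (k + 1) * eps c * pm d k

/-- the symbol of `∂̄` -/
def sB (c : Fin (d + d)) : Fm d := ∑ k ∈ Finset.range (d + 1), pm d k * eps c * pm d k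

theorem sA_h (j : Fin d) : sA (hl j) = eps (hl j) := by
  simp only [sA, f1b.pm_hl, Matrix.mul_assoc, f1b.pm_mul, if_true, ← Finset.mul_sum, f1b.pm_sum,
    Matrix.mul_one]

theorem sA_a (j : Fin d) : sA (ah j) = 0 := by
  refine Finset.sum_eq_zero fun k _ => ?_
  rw [f1b.pm_ah, Matrix.mul_assoc, f1b.pm_mul, if_neg (by omega), Matrix.mul_zero]

theorem sB_h (j : Fin d) : sB (hl j) = 0 := by
  refine Finset.sum_eq_zero fun k _ => ?_
  rw [Matrix.mul_assoc, ← f1b.pm_hl, ← Matrix.mul_assoc, f1b.pm_mul, if_neg (by omega),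
    Matrix.zero_mul]

theorem sB_a (j : Fin d) : sB (ah j) = eps (ah j) := by
  simp only [sB, f1b.pm_ah, Matrix.mul_assoc, f1b.pm_mul, if_true, ← Finset.mul_sum, f1b.pm_sum,
    Matrix.mul_one]

/-- the symbol of `d + d*` -/
def sD (w : Matrix (Fin d) (Fin d) ℂ) (c : Fin (d + d)) : Fm d :=
  eps c + (Complex.I • (Lam w * sB c - sB c * Lam w) +
    (-Complex.I) • (Lam w * sA c - sA c * Lam w))

theorem sD_h (w : Matrix (Fin d) (Fin d) ℂ) (m : Fin d) :
    sD w (hl m) = eps (hl m) - ∑ k, w⁻¹ k m • iot (ah k) := by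
  rw [sD, sA_h, sB_h, Lam_h, Matrix.mul_zero, Matrix.zero_mul, sub_zero, smul_zero, zero_add,
    Finset.smul_sum, sub_eq_add_neg, ← Finset.sum_neg_distrib]
  congr 1
  refine Finset.sum_congr rfl fun k _ => ?_
  rw [smul_smul, ← mul_assoc, neg_mul_neg, Complex.I_mul_I, neg_one_mul, neg_smul]

theorem sD_a (w : Matrix (Fin d) (Fin d) ℂ) (m : Fin d) :
    sD w (ah m) = eps (ah m) - ∑ j, w⁻¹ m j • iot (hl j) := by
  rw [sD, sA_a, sB_a, Lam_a, Matrix.mul_zero, Matrix.zero_mul, sub_zero, smul_zero, add_zero,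
    Finset.smul_sum, sub_eq_add_neg, ← Finset.sum_neg_distrib]
  congr 1
  refine Finset.sum_congr rfl fun k _ => ?_
  rw [smul_smul, ← mul_assoc, Complex.I_mul_I, neg_one_mul, neg_smul]

theorem sum_sD {w : Matrix (Fin d) (Fin d) ℂ} (hw : w.IsHermitian) {x : Fin (d + d) → ℂ}
    (hx : ∀ j, x (ah j) = star (x (hl j))) :
    ∑ c, x c • sD w c = epsV x - iotV (star (blk w⁻¹ w⁻¹ᵀ *ᵥ x)) := by
  have sp : ∀ f : Fin (d + d) → ℂ, ∑ c, f c = ∑ j, f (hl j) + ∑ j, f (ah j) := fun f =>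
    Fin.sum_univ_add f
  have sp' : ∀ f : Fin (d + d) → Fm d, ∑ c, f c = ∑ j, f (hl j) + ∑ j, f (ah j) := fun f =>
    Fin.sum_univ_add f
  have h1 : ∀ i, star (blk w⁻¹ w⁻¹ᵀ *ᵥ x) (hl i) = ∑ m, x (ah m) * w⁻¹ m i := by
    intro i
    simp only [Pi.star_apply, Matrix.mulVec, dotProduct, sp, f1b.blk_hh, f1b.blk_ha, zero_mul,
      Finset.sum_const_zero, add_zero, star_sum, star_mul, hw.inv.apply, hx]
  have h2 : ∀ i, star (blk w⁻¹ w⁻¹ᵀ *ᵥ x) (ah i) = ∑ m, x (hl m) * w⁻¹ i m := by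
    intro i
    simp only [Pi.star_apply, Matrix.mulVec, dotProduct, sp, f1b.blk_aa, f1b.blk_ah, zero_mul,
      Finset.sum_const_zero, zero_add, star_sum, star_mul, Matrix.transpose_apply, hw.inv.apply,
      hx, star_star]
  rw [F2bH.epsV_split, F2bH.iotV_split, sp']
  simp only [sD_h, sD_a, h1, h2, smul_sub, Finset.sum_sub_distrib, Finset.smul_sum, smul_smul,
    Finset.sum_smul]
  rw [Finset.sum_comm (f := fun i m => (x (ah m) * w⁻¹ m i) • iot (hl i)),
    Finset.sum_comm (f := fun i m => (x (hl m) * w⁻¹ i m) • iot (ah i))]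
  abel

/-- the coordinate derivatives as functions of the differential -/
def Ph (c : Fin (d + d)) : (Cm d →L[ℝ] Vd d) →L[ℝ] Vd d :=
  Fin.addCases (motive := fun _ => (Cm d →L[ℝ] Vd d) →L[ℝ] Vd d)
    (fun l => (2⁻¹ : ℂ) • (ContinuousLinearMap.apply ℝ (Vd d) (Pi.single l 1 : Cm d) -
      Complex.I • ContinuousLinearMap.apply ℝ (Vd d) (Pi.single l Complex.I : Cm d)))
    (fun l => (2⁻¹ : ℂ) • (ContinuousLinearMap.apply ℝ (Vd d) (Pi.single l 1 : Cm d) +
      Complex.I • ContinuousLinearMap.apply ℝ (Vd d) (Pi.single l Complex.I : Cm d))) c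

theorem Ph_h (l : Fin d) (L : Cm d →L[ℝ] Vd d) : Ph (hl l) L =
    (2⁻¹ : ℂ) • (L (Pi.single l 1) - Complex.I • L (Pi.single l Complex.I)) := by
  rw [Ph, hl, Fin.addCases_left]
  rfl

theorem Ph_a (l : Fin d) (L : Cm d →L[ℝ] Vd d) : Ph (ah l) L =
    (2⁻¹ : ℂ) • (L (Pi.single l 1) + Complex.I • L (Pi.single l Complex.I)) := by
  rw [Ph, ah, Fin.addCases_right]
  rfl

theorem Ph_Dv (c : Fin (d + d)) {u : Cm d → Fo d} {z : Cm d} (hu : ContDiffAt ℝ ∞ u z) :
    Ph c (fderiv ℝ (fun y => (WithLp.toLp 2 (u y) : Vd d)) z) = WithLp.toLp 2 (Dv c u z) := by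
  refine F1bH.idx (P := fun c => Ph c (fderiv ℝ (fun y => (WithLp.toLp 2 (u y) : Vd d)) z) =
    WithLp.toLp 2 (Dv c u z)) (fun l => ?_) (fun l => ?_) c
  · rw [Ph_h]
    ext i
    show _ = dr (Fin.castAdd d l) (fun y => u y i) z
    simp only [PiLp.smul_apply, PiLp.sub_apply, fderiv_lp hu, smul_eq_mul, dr, Fin.addCases_left,
      dz]
    ring
  · rw [Ph_a]
    ext i
    show _ = dr (Fin.natAdd d l) (fun y => u y i) z
    simp only [PiLp.smul_apply, PiLp.add_apply, fderiv_lp hu, smul_eq_mul, dr, Fin.addCases_right,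
      dzb]
    ring

theorem mE_smul' (A : Fm d) (c : ℂ) (v : Vd d) : mE A (c • v) = c • mE A v :=
  (Matrix.toEuclideanCLM (𝕜 := ℂ) A).map_smul c v

theorem mE_add (A B : Fm d) (v : Vd d) : mE (A + B) v = mE A v + mE B v := by
  ext i
  exact congrFun (Matrix.add_mulVec A B v.ofLp) i

theorem mE_smul (c : ℂ) (A : Fm d) (v : Vd d) : mE (c • A) v = c • mE A v := by
  ext i
  exact congrFun (Matrix.smul_mulVec c A v.ofLp) i

theorem mE_mul (A B : Fm d) (v : Vd d) : mE (A * B) v = mE A (mE B v) := by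
  ext i
  exact congrFun (Matrix.mulVec_mulVec v.ofLp A B).symm i

theorem mE_zero (v : Vd d) : mE (0 : Fm d) v = 0 := by
  ext i
  exact congrFun (Matrix.zero_mulVec v.ofLp) i

theorem mE_sum {ι : Type} (s : Finset ι) (A : ι → Fm d) (v : Vd d) :
    mE (∑ i ∈ s, A i) v = ∑ i ∈ s, mE (A i) v := by
  classical
  induction s using Finset.induction_on with
  | empty => rw [Finset.sum_empty, Finset.sum_empty, mE_zero]
  | insert i s hi ih => rw [Finset.sum_insert hi, Finset.sum_insert hi, mE_add, ih]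

theorem Ph_comp (c : Fin (d + d)) (A : Fm d) (L : Cm d →L[ℝ] Vd d) :
    Ph c ((mE A).comp L) = mE A (Ph c L) := by
  refine F1bH.idx (P := fun c => Ph c ((mE A).comp L) = mE A (Ph c L)) (fun l => ?_)
    (fun l => ?_) c
  · rw [Ph_h, Ph_h, mE_smul', map_sub, mE_smul']
    rfl
  · rw [Ph_a, Ph_a, mE_smul', map_add, mE_smul']
    rfl

/-- the complex coordinates of a real covector -/
def xc (ξ : Cm d →L[ℝ] ℝ) (c : Fin (d + d)) : ℂ :=
  Fin.addCases (motive := fun _ => ℂ)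
    (fun l => 2⁻¹ * ((ξ (Pi.single l 1) : ℝ) - Complex.I * (ξ (Pi.single l Complex.I) : ℝ)))
    (fun l => 2⁻¹ * ((ξ (Pi.single l 1) : ℝ) + Complex.I * (ξ (Pi.single l Complex.I) : ℝ))) c

theorem xc_h (ξ : Cm d →L[ℝ] ℝ) (l : Fin d) : xc ξ (hl l) =
    2⁻¹ * ((ξ (Pi.single l 1) : ℝ) - Complex.I * (ξ (Pi.single l Complex.I) : ℝ)) := by
  rw [xc, hl, Fin.addCases_left]

theorem xc_a (ξ : Cm d →L[ℝ] ℝ) (l : Fin d) : xc ξ (ah l) =
    2⁻¹ * ((ξ (Pi.single l 1) : ℝ) + Complex.I * (ξ (Pi.single l Complex.I) : ℝ)) := by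
  rw [xc, ah, Fin.addCases_right]

theorem xc_star (ξ : Cm d →L[ℝ] ℝ) (l : Fin d) : xc ξ (ah l) = star (xc ξ (hl l)) := by
  rw [xc_h, xc_a]
  simp

theorem xc_ne {ξ : Cm d →L[ℝ] ℝ} (h : ξ ≠ 0) : xc ξ ≠ 0 := by
  intro h0
  refine h ?_
  have h1 : ∀ l, ξ (Pi.single l 1) = 0 ∧ ξ (Pi.single l Complex.I) = 0 := by
    intro l
    have h2 := congrFun h0 (ah l)
    rw [xc_a, Pi.zero_apply, mul_eq_zero] at h2
    have h3 := h2.resolve_left (by norm_num)
    have h4 := congrArg Complex.re h3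
    have h5 := congrArg Complex.im h3
    simp at h4 h5
    exact ⟨h4, h5⟩
  ext v
  have h6 : v = ∑ l, ((v l).re • (Pi.single l 1 : Cm d) +
      (v l).im • (Pi.single l Complex.I : Cm d)) := by
    ext i
    rw [Finset.sum_apply, Finset.sum_eq_single i]
    · simp
    · intro j _ hj
      simp [Pi.single_eq_of_ne hj.symm]
    · simp
  rw [h6]
  simp [h1]

theorem Ph_sym (c : Fin (d + d)) (ξ : Cm d →L[ℝ] ℝ) (v : Vd d) :
    Ph c (ξ.smulRight v) = xc ξ c • v := by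
  refine F1bH.idx (P := fun c => Ph c (ξ.smulRight v) = xc ξ c • v) (fun l => ?_) (fun l => ?_) c
  · rw [Ph_h, xc_h]
    simp only [ContinuousLinearMap.smulRight_apply, ← Complex.coe_smul, smul_smul, ← sub_smul]
  · rw [Ph_a, xc_a]
    simp only [ContinuousLinearMap.smulRight_apply, ← Complex.coe_smul, smul_smul, ← add_smul]

/-- the principal part with given coefficients -/
def aS (σ : Fin (d + d) → Fm d) : (Cm d →L[ℝ] Vd d) →L[ℝ] Vd d := ∑ c, (mE (σ c)).comp (Ph c)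

theorem aS_apply (σ : Fin (d + d) → Fm d) (L : Cm d →L[ℝ] Vd d) :
    aS σ L = ∑ c, mE (σ c) (Ph c L) := by
  simp only [aS, _root_.sum_apply, ContinuousLinearMap.comp_apply]

theorem aS_smooth {σ : Cm d → Fin (d + d) → Fm d} {z : Cm d}
    (h : ∀ c, MC ∞ (fun y => σ y c) z) : ContDiffAt ℝ ∞ (fun y => aS (σ y)) z :=
  ContDiffAt.sum fun c _ => (contDiffAt_mE (h c)).clm_comp contDiffAt_const

theorem sym_aS (σ : Fin (d + d) → Fm d) (ξ : Cm d →L[ℝ] ℝ) (v : Vd d) :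
    sym (aS σ) ξ v = mE (∑ c, xc ξ c • σ c) v := by
  simp only [sym, aS_apply, Ph_sym, mE_sum, mE_smul, mE_smul']

/-- the real part of a Hermitian form -/
def rB (G : Fm d) : Vd d →L[ℝ] Vd d →L[ℝ] ℝ :=
  LinearMap.toContinuousLinearMap (LinearMap.toContinuousLinearMap.toLinearMap ∘ₗ
    LinearMap.mk₂ ℝ (fun u v : Vd d => (star u.ofLp ⬝ᵥ (G *ᵥ v.ofLp)).re)
      (fun a b v => by simp [add_dotProduct])
      (fun c a v => by simp [smul_dotProduct])
      (fun a b v => by simp [Matrix.mulVec_add])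
      (fun c a v => by simp [Matrix.mulVec_smul]))

theorem rB_apply (G : Fm d) (u v : Vd d) : rB G u v = (star u.ofLp ⬝ᵥ (G *ᵥ v.ofLp)).re := rfl

theorem rB_pf {G : Fm d} (hG : G.PosDef) : PF (rB G) := by
  refine ⟨fun u v => ?_, fun v hv => ?_⟩
  · rw [rB_apply, rB_apply, ← Complex.conj_re, ← Complex.star_def, ← Matrix.star_dotProduct_star,
      star_star, Matrix.star_mulVec, hG.isHermitian.eq, Matrix.dotProduct_mulVec]
  · have h1 : v.ofLp ≠ 0 := fun h => hv (by ext i; exact congrFun h i)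
    exact (Complex.pos_iff.1 (hG.dotProduct_mulVec_pos h1)).1

theorem rB_mE (G A : Fm d) (v : Vd d) : rB G (mE A v) (mE A v) = rB (Aᴴ * G * A) v v := by
  show (star (A *ᵥ v.ofLp) ⬝ᵥ (G *ᵥ (A *ᵥ v.ofLp))).re = (star v.ofLp ⬝ᵥ (_ *ᵥ v.ofLp)).re
  rw [Matrix.star_mulVec, ← Matrix.dotProduct_mulVec, Matrix.mulVec_mulVec, Matrix.mulVec_mulVec]

theorem clf_sD {w : Matrix (Fin d) (Fin d) ℂ} (hw : w.PosDef) : Clf (sym (aS (sD w))) := by
  have hP := blk_pos hw
  refine ⟨rB (lam (blk w⁻¹ w⁻¹ᵀ)), rB (lam (blk w⁻¹ w⁻¹ᵀ)), rB_pf (lam_posDef hP),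
    rB_pf (lam_posDef hP), fun ξ hξ => ?_⟩
  have h1 := Complex.pos_iff.1 (hP.dotProduct_mulVec_pos (xc_ne hξ))
  have h2 : star (blk w⁻¹ w⁻¹ᵀ *ᵥ xc ξ) ⬝ᵥ xc ξ =
      ((star (xc ξ) ⬝ᵥ (blk w⁻¹ w⁻¹ᵀ *ᵥ xc ξ)).re : ℝ) := by
    rw [Matrix.star_mulVec, hP.isHermitian.eq, ← Matrix.dotProduct_mulVec]
    exact Complex.ext rfl h1.2.symm
  refine ⟨_, h1.1, fun v => ?_⟩
  rw [sym_aS, sum_sD hw.isHermitian (xc_star ξ), rB_mE, clif hP.isHermitian, h2, rB_apply,
    rB_apply, Matrix.smul_mulVec, dotProduct_smul, smul_eq_mul, Complex.re_ofReal_mul]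

variable {M : Type} [TopologicalSpace M] [ChartedSpace (Cm d) M]

/-- operators of order one with given principal coefficients -/
def FS (T : Module.End ℂ (SF d M)) (σ : Rw d M (Fin (d + d) → Fm d)) : Prop :=
  ∀ e ∈ atlas (Cm d) M, (∀ z ∈ e.target, ∀ c, MC ∞ (fun y => σ e y c) z) ∧
    ∃ b : Cm d → Vd d →L[ℝ] Vd d, ContDiffOn ℝ ∞ b e.target ∧
      ∀ u, ∀ z ∈ e.target, rE (T u) e z = fo (fun y => aS (σ e y)) b (rE u e) z

/-- operators of order zero with given coefficients -/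
def ZS (T : Module.End ℂ (SF d M)) (F : Rw d M (Fm d)) : Prop :=
  ∀ e ∈ atlas (Cm d) M, ∀ z ∈ e.target,
    MC ∞ (F e) z ∧ ∀ u, rE (T u) e z = mE (F e z) (rE u e z)

theorem zs_of {F : Rw d M (Fm d)} {T : Module.End ℂ (SF d M)} (h : IsOp F T)
    (hF : ∀ e x, At e x → MC ∞ (F e) (e x)) : ZS T F := by
  intro e he z hz
  have h1 := hF e _ (at_symm he hz)
  rw [e.right_inv hz] at h1
  refine ⟨h1, fun u => ?_⟩
  have h2 := h u e _ (at_symm he hz)
  rw [e.right_inv hz] at h2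
  rw [rE, h2, rE, mE_apply]

variable {T T' : Module.End ℂ (SF d M)} {σ σ' : Rw d M (Fin (d + d) → Fm d)} {F : Rw d M (Fm d)}

theorem FS.zero : FS (0 : Module.End ℂ (SF d M)) fun _ _ _ => 0 := fun _ _ =>
  ⟨fun _ _ _ => MC_const _ _, 0, contDiffOn_const, fun u z _ => by
    simp only [fo, aS_apply, mE_zero, Finset.sum_const_zero, Pi.zero_apply, _root_.zero_apply,
      add_zero]
    rfl⟩

theorem FS.add (h : FS T σ) (h' : FS T' σ') : FS (T + T') fun e z c => σ e z c + σ' e z c := by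
  intro e he
  obtain ⟨ha, b, hb, h1⟩ := h e he
  obtain ⟨ha', b', hb', h2⟩ := h' e he
  refine ⟨fun z hz c => (ha z hz c).add (ha' z hz c), fun z => b z + b' z, hb.add hb',
    fun u z hz => ?_⟩
  rw [LinearMap.add_apply, rE_add, h1 u z hz, h2 u z hz]
  simp only [fo, _root_.add_apply, aS_apply, mE_add, Finset.sum_add_distrib]
  abel

theorem FS.smul (c : ℂ) (h : FS T σ) : FS (c • T) fun e z l => c • σ e z l := by
  intro e he
  obtain ⟨ha, b, hb, h1⟩ := h e he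
  refine ⟨fun z hz l => fun i j => contDiffAt_const.mul (ha z hz l i j), fun z => c • b z, hb.const_smul c,
    fun u z hz => ?_⟩
  rw [LinearMap.smul_apply, rE_smul, h1 u z hz]
  simp only [fo, _root_.smul_apply, smul_add, aS_apply, mE_smul, Finset.smul_sum]

theorem FS.sub (h : FS T σ) (h' : FS T' σ') : FS (T - T') fun e z c => σ e z c - σ' e z c := by
  have h1 := h.add (h'.smul (-1))
  simpa only [neg_one_smul, ← sub_eq_add_neg] using h1

theorem FS.sum {ι : Type} (s : Finset ι) {T : ι → Module.End ℂ (SF d M)}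
    {σ : ι → Rw d M (Fin (d + d) → Fm d)} (h : ∀ i, FS (T i) (σ i)) :
    FS (∑ i ∈ s, T i) fun e z c => ∑ i ∈ s, σ i e z c := by
  classical
  induction s using Finset.induction_on with
  | empty => simpa only [Finset.sum_empty] using FS.zero
  | insert i s hi ih => simpa only [Finset.sum_insert hi] using (h i).add ih

theorem ZS.mul (h : ZS T F) (h' : FS T' σ) : FS (T * T') fun e z c => F e z * σ e z c := by
  intro e he
  obtain ⟨ha, b, hb, h2⟩ := h' e he
  refine ⟨fun z hz c => (h e he z hz).1.mul (ha z hz c), fun z => (mE (F e z)).comp (b z),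
    ContDiffOn.clm_comp (fun z hz => (contDiffAt_mE (h e he z hz).1).contDiffWithinAt) hb,
    fun u z hz => ?_⟩
  rw [Module.End.mul_apply, (h e he z hz).2, h2 u z hz]
  simp only [fo, ContinuousLinearMap.comp_apply, map_add, aS_apply, mE_mul, map_sum]

theorem FS.mul (h : FS T σ) (h' : ZS T' F) : FS (T * T') fun e z c => σ e z c * F e z := by
  intro e he
  obtain ⟨ha, b, hb, h1⟩ := h e he
  have hF : ContDiffOn ℝ ∞ (fun z => mE (F e z)) e.target := fun z hz =>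
    (contDiffAt_mE (h' e he z hz).1).contDiffWithinAt
  have hA : ContDiffOn ℝ ∞ (fun z => aS (σ e z)) e.target := fun z hz =>
    (aS_smooth (ha z hz)).contDiffWithinAt
  have hfl : ContDiffOn ℝ ∞ (fun z => (fderiv ℝ (fun z => mE (F e z)) z).flip) e.target :=
    cdo_flip (hF.fderiv_of_isOpen e.open_target (by simp))
  refine ⟨fun z hz c => (ha z hz c).mul (h' e he z hz).1,
    fun z => (aS (σ e z)).comp (fderiv ℝ (fun z => mE (F e z)) z).flip + (b z).comp (mE (F e z)),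
    (hA.clm_comp hfl).add (hb.clm_comp hF), fun u z hz => ?_⟩
  have hn := e.open_target.mem_nhds hz
  have e1 : rE (T' u) e =ᶠ[𝓝 z] fun y => mE (F e y) (rE u e y) := by
    filter_upwards [hn] with y hy using (h' e he y hy).2 u
  have d1 : DifferentiableAt ℝ (fun z => mE (F e z)) z :=
    (hF.contDiffAt hn).differentiableAt (by simp)
  have d2 : DifferentiableAt ℝ (rE u e) z := (rE_smooth u he hz).differentiableAt (by simp)
  rw [Module.End.mul_apply, h1 _ z hz]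
  simp only [fo]
  rw [e1.fderiv_eq, fderiv_clm_apply d1 d2, (h' e he z hz).2 u]
  have e2 : aS (σ e z) ((mE (F e z)).comp (fderiv ℝ (rE u e) z)) =
      aS (fun c => σ e z c * F e z) (fderiv ℝ (rE u e) z) := by
    simp only [aS_apply, Ph_comp, mE_mul]
  simp only [ContinuousLinearMap.comp_apply, _root_.add_apply, map_add, e2]
  abel

variable [T2Space M] [CompactSpace M] [IsManifold 𝓘(ℂ, Cm d) ω M] {X : Cx (SF d M) d}

theorem fs_d (hX : RealX X) : FS X.d fun _ _ c => eps c := by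
  intro e he
  refine ⟨fun _ _ _ => MC_const _ _, 0, contDiffOn_const, fun u z hz => ?_⟩
  have h1 := hX.d u e _ (at_symm he hz)
  rw [e.right_inv hz] at h1
  have h2 : ∀ c, Ph c (fderiv ℝ (rE u e) z) = WithLp.toLp 2 (Dv c (vl u e) z) := fun c =>
    Ph_Dv c (vl_smooth u he hz)
  rw [rE, h1, dT, WithLp.toLp_sum]
  simp only [fo, Pi.zero_apply, _root_.zero_apply, add_zero, aS_apply, h2, mE_apply]

theorem fs_D {w : Rw d M (Matrix (Fin d) (Fin d) ℂ)} {K : KP X} (hX : RealX X) (hw : IsKahler w)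
    (hK : RealK w K) : FS (X.d + K.ds) fun e z c => sD (w e z) c := by
  have hd := fs_d hX
  have hp : ∀ k, ZS (K.pr k) fun _ _ => pm d k := fun k =>
    zs_of (hK.pr k) fun _ _ _ => MC_const _ _
  have hL : ZS K.Lm fun e z => Lam (w e z) := zs_of hK.Lm fun e x hx =>
    mc_Lam (fun i j => hw.smooth e x hx i j) (hw.posDef e x hx).det_pos.ne'
  have hA : FS K.A fun _ _ c => sA c := FS.sum _ fun k => ((hp (k + 1)).mul hd).mul (hp k)
  have hAb : FS K.Ab fun _ _ c => sB c := FS.sum _ fun k => ((hp k).mul hd).mul (hp k)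
  exact hd.add ((((hL.mul hAb).sub (hAb.mul hL)).smul _).add
    (((hL.mul hA).sub (hA.mul hL)).smul _))

end Sym

theorem symb : SYM := by
  intro d M _ _ _ _ _ X w K hX hw hK e he
  obtain ⟨ha, b, hb, h1⟩ := Sym.fs_D hX hw hK e he
  refine ⟨fun z => Sym.aS (Sym.sD (w e z)), b,
    fun z hz => (Sym.aS_smooth (ha z hz)).contDiffWithinAt, hb, h1, fun z hz => ?_⟩
  have h2 := hw.posDef e _ (at_symm he hz)
  rw [e.right_inv hz] at h2
  exact Sym.clf_sD h2

end Vale.Agent.P275M
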