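import Vale.Agent.P275M.S1
import Vale.Agent.P363.R.Sob.LocApprox

/-!
# P275, mixed Hodge block: functions in all local Sobolev classes are smooth
-/

open scoped ContDiff Topology ENNReal NNReal
open Set Filter Metric MeasureTheory
open Vale.Agent.P363.R.Sob Vale.Agent.P299.H863

set_option linter.unusedSectionVars false

noncomputable section

namespace Vale.Agent.P275M

namespace Smo

variable {E : Type} [NormedAddCommGroup E] [NormedSpace ℝ E] [FiniteDimensional ℝ E]
  [MeasurableSpace E] [BorelSpace E] {μ : Measure E} [μ.IsAddHaarMeasure] {ι : Type} [Fintype ι]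
  {V : Type} [NormedAddCommGroup V] [NormedSpace ℝ V]

/-- iterated derivatives along a list of directions -/
def pdl (e : ι → E) : List ι → (E → V) → E → V
  | [], φ => φ
  | i :: l, φ => fun x => fderiv ℝ (pdl e l φ) x (e i)

theorem pdl_sm (e : ι → E) (l : List ι) {φ : E → V} (h : ContDiff ℝ ∞ φ) :
    ContDiff ℝ ∞ (pdl e l φ) := by
  induction l with
  | nil => exact h
  | cons i l ih => exact (ih.fderiv_right (m := ∞) (by simp)).clm_apply contDiff_const

theorem pdl_supp (e : ι → E) (l : List ι) (φ : E → V) : tsupport (pdl e l φ) ⊆ tsupport φ := by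
  induction l with
  | nil => exact Subset.rfl
  | cons i l ih => exact (tsupport_fderiv_apply_subset ℝ (e i)).trans ih

theorem pdl_sub (e : ι → E) (l : List ι) {φ ψ : E → V} (h : ContDiff ℝ ∞ φ) (h' : ContDiff ℝ ∞ ψ) :
    pdl e l (φ - ψ) = pdl e l φ - pdl e l ψ := by
  induction l with
  | nil => rfl
  | cons i l ih =>
    funext x
    simp only [pdl, ih, Pi.sub_apply]
    rw [fderiv_sub ((pdl_sm e l h).differentiable (by simp) x)
      ((pdl_sm e l h').differentiable (by simp) x)]
    rfl

/-- the supremum is bounded by the integral of the mixed derivative -/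
theorem sup_le (e : Module.Basis ι ℝ E) : ∃ (l : List ι) (C : ℝ≥0), ∀ φ : E → V, ContDiff ℝ ∞ φ →
    HasCompactSupport φ → ∀ x, ‖φ x‖ₑ ≤ C * ∫⁻ y, ‖pdl e l φ y‖ₑ ∂μ := by
  classical
  let L := e.equivFunL.symm
  let c := Measure.addHaarScalarFactor ((volume : Measure (ι → ℝ)).map L) μ
  have hc : (volume : Measure (ι → ℝ)).map L = c • μ := Measure.isAddLeftInvariant_eq_smul ..
  refine ⟨Finset.univ.toList, c, fun φ h1 h2 x => ?_⟩
  have m : ∀ l, Measurable fun y => ‖pdl e l φ y‖ₑ := fun l =>
    (pdl_sm e l h1).continuous.enorm.measurable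
  have key : ∀ l : List ι, l.Nodup → ∀ y, ‖φ (L y)‖ₑ ≤
      lmarginal (fun _ => volume) l.toFinset (fun y => ‖pdl e l φ (L y)‖ₑ) y := by
    intro l hl y
    induction l with
    | nil => simp [pdl]
    | cons i l ih =>
      rw [List.nodup_cons] at hl
      rw [List.toFinset_cons, lmarginal_insert' (fun y => ‖pdl e (i :: l) φ (L y)‖ₑ)
        ((m _).comp L.continuous.measurable) (by simpa using hl.1)]
      refine (ih hl.2).trans (lmarginal_mono (fun z => ?_) y)
      have s1 : ContDiff ℝ 1 (pdl e l φ) := (pdl_sm e l h1).of_le (by simp)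
      have s2 : HasCompactSupport (pdl e l φ ∘ L) :=
        HasCompactSupport.comp_homeomorph (h2.of_isClosed_subset (isClosed_tsupport _)
          (pdl_supp e l φ)) L.toHomeomorph
      have hd : ∀ t : ℝ, HasDerivAt (fun t => L (Function.update z i t)) (e i) t := fun t => by
        have := L.toContinuousLinearMap.hasFDerivAt.comp_hasDerivAt t (hasDerivAt_update z i t)
        have e1 : L.toContinuousLinearMap (Pi.single i 1) = e i := by
          change e.equivFun.symm (Pi.single i 1) = e i
          simp [Pi.single_apply]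
        rwa [e1] at this
      have := HasCompactSupport.enorm_le_lintegral_Ici_deriv
        (f := fun t => pdl e l φ (L (Function.update z i t)))
        (s1.comp (L.contDiff.comp (contDiff_update 1 z i)))
        (s2.comp_isClosedEmbedding (isClosedEmbedding_update z i)) (z i)
      rw [Function.update_eq_self] at this
      refine this.trans ((lintegral_mono' Measure.restrict_le_self le_rfl).trans_eq ?_)
      refine lintegral_congr fun t => ?_
      exact congrArg enorm
        ((s1.differentiable one_ne_zero _).hasFDerivAt.comp_hasDerivAt t (hd t)).deriv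
  have := key _ (Finset.nodup_toList Finset.univ) (L.symm x)
  rw [Finset.toList_toFinset, lmarginal_univ, L.apply_symm_apply] at this
  refine this.trans_eq ?_
  rw [← volume_pi, ← lintegral_map (m _) L.continuous.measurable, hc, lintegral_smul_measure]
  rfl

variable {e : ι → E} {f g : E → V}

theorem LL.li (h : LL μ f) : LocallyIntegrable f μ := by
  rw [locallyIntegrable_iff]
  intro K hK
  have : IsFiniteMeasure (μ.restrict K) := ⟨by
    rw [Measure.restrict_apply_univ]; exact hK.measure_lt_top⟩
  exact (h K hK).integrable one_le_two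

theorem ll {k : ℕ} (h : Sob μ e k f) : LL μ f := by
  cases k with
  | zero => exact h
  | succ k => exact h.1

theorem congr {k : ℕ} (h : Sob μ e k f) (hf : f =ᵐ[μ] g) : Sob μ e k g := by
  have h1 : LL μ g := fun K hK => (ll h K hK).ae_eq (ae_restrict_of_ae hf)
  cases k with
  | zero => exact h1
  | succ k => exact ⟨h1, fun i => (h.2 i).imp fun p hp => ⟨hp.1.congr hf (ae_eq_refl _), hp.2⟩⟩

theorem add {k : ℕ} (hf : Sob μ e k f) (hg : Sob μ e k g) : Sob μ e k fun x => f x + g x := by
  induction k generalizing f g with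
  | zero => exact fun K hK => (hf K hK).add (hg K hK)
  | succ k ih =>
    refine ⟨fun K hK => (hf.1 K hK).add (hg.1 K hK), fun i => ?_⟩
    obtain ⟨p, hp, hs⟩ := hf.2 i
    obtain ⟨q, hq, ht⟩ := hg.2 i
    exact ⟨_, hp.add hq (LL.li hf.1) (LL.li (ll hs)) (LL.li hg.1) (LL.li (ll ht)), ih hs ht⟩

theorem LL.smul {ψ : E → ℝ} (hψ : Continuous ψ) (hf : LL μ f) : LL μ fun x => ψ x • f x := by
  intro K hK
  obtain ⟨C, hC⟩ := hK.exists_bound_of_continuousOn hψ.continuousOn
  refine MemLp.of_le_mul (g := f) (c := C) (hf K hK) (hψ.aestronglyMeasurable.smul (hf K hK).1) ?_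
  filter_upwards [ae_restrict_mem hK.measurableSet] with x hx
  rw [norm_smul]
  exact mul_le_mul_of_nonneg_right (hC x hx) (norm_nonneg _)

variable [CompleteSpace V]

/-- membership in all classes -/
def SA (μ : Measure E) (e : ι → E) (f : E → V) : Prop := ∀ k, Sob μ e k f

theorem SA.li (h : SA μ e f) : LocallyIntegrable f μ := LL.li (h 0)

theorem SA.der (h : SA μ e f) (i : ι) : ∃ g, IsWD μ (e i) f g ∧ SA μ e g := by
  obtain ⟨g, h1, h2⟩ := (h 1).2 i
  refine ⟨g, h1, fun k => ?_⟩
  obtain ⟨g', k1, k2⟩ := (h (k + 1)).2 i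
  exact congr k2 (k1.unique h1 (LL.li (ll k2)) (LL.li h2))

theorem SA.smul (h : SA μ e f) {ψ : E → ℝ} (hψ : ContDiff ℝ ∞ ψ) : SA μ e fun x => ψ x • f x := by
  intro k
  induction k generalizing f ψ with
  | zero => exact LL.smul hψ.continuous (h 0)
  | succ k ih =>
    refine ⟨LL.smul hψ.continuous (h 0), fun i => ?_⟩
    obtain ⟨p, hp, hs⟩ := h.der i
    exact ⟨_, hp.smooth_smul hψ h.li hs.li, add (ih h
      ((hψ.fderiv_right (m := ∞) (by simp)).clm_apply contDiff_const)) (ih hs hψ)⟩

theorem SA.pdl (h : SA μ e f) (l : List ι) :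
    ∃ g, SA μ e g ∧ ∀ ρ, pdl e l (moll μ ρ f) = moll μ ρ g := by
  induction l with
  | nil => exact ⟨f, h, fun _ => rfl⟩
  | cons i l ih =>
    obtain ⟨g, h1, h2⟩ := ih
    obtain ⟨p, hp, hs⟩ := h1.der i
    exact ⟨p, hs, fun ρ => funext fun x => by
      rw [Smo.pdl, h2]; exact fderiv_moll ρ hp h1.li x⟩

variable {e : Module.Basis ι ℝ E}

theorem SA.cau (h : SA μ e f) {K : Set E} (hK : IsCompact K) :
    UniformCauchySeqOn (fun n => moll μ (stdBump n) f) atTop K := by
  have := FiniteDimensional.proper ℝ E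
  obtain ⟨l, C, hC⟩ := sup_le (μ := μ) (V := V) e
  obtain ⟨η, h1, h2, -⟩ := exists_testV (hK.cthickening (r := 1)) isOpen_univ (subset_univ _)
  have hF := h.smul h1.smooth
  obtain ⟨G, hG, eG⟩ := hF.pdl l
  have hS : IsCompact (cthickening 1 (tsupport η)) := h1.cpt.isCompact.cthickening
  set S := cthickening 1 (tsupport η)
  set u : ℕ → E → V := fun n => moll μ (stdBump n) fun x => η x • f x
  have us : ∀ n, ContDiff ℝ ∞ (u n) := fun n => moll_contDiff _ hF.li
  have u0 : ∀ n, ∀ x ∉ S, u n x = 0 := fun n x hx => moll_eq_zero (K := tsupport η)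
    (fun x hx => by rw [h1.zero_off hx, zero_smul]) _ (stdBump_rOut_le n) hx
  have ue : ∀ n, ∀ x ∈ K, moll μ (stdBump n) f x = u n x := fun n x hx =>
    moll_congr_on _ fun y hy => by
      rw [h2 y (mem_cthickening_of_dist_le y x 1 K hx
        ((mem_ball.1 hy).le.trans (stdBump_rOut_le n))), one_smul]
  set δ : ℕ → ℝ≥0∞ := fun n => C * eLpNorm (moll μ (stdBump n) G - G) 1 (μ.restrict S)
  have t : Tendsto δ atTop (𝓝 0) := by
    simpa using ENNReal.Tendsto.const_mul (a := C) (tendsto_moll_loc hG.li hS)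
      (Or.inr ENNReal.coe_ne_top)
  have b : ∀ n m x, ‖u n x - u m x‖ₑ ≤ δ n + δ m := fun n m x => by
    have sp : tsupport (u n - u m) ⊆ S := closure_minimal
      (fun y hy => by_contra fun k => hy (by simp [u0 _ y k])) hS.isClosed
    refine (hC (u n - u m) ((us n).sub (us m)) (hS.of_isClosed_subset isClosed_closure sp)
      x).trans ?_
    rw [← mul_add, ← setLIntegral_eq_of_support_subset (s := S) fun y hy => by_contra fun k =>
      hy (by simp [image_eq_zero_of_notMem_tsupport fun k' => k (sp (pdl_supp _ l _ k'))]),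
      pdl_sub _ _ (us n) (us m), eG, eG, ← eLpNorm_one_eq_lintegral_enorm]
    refine mul_le_mul_right ?_ _
    have m1 : ∀ n, AEStronglyMeasurable (moll μ (stdBump n) G - G) (μ.restrict S) := fun n =>
      ((moll_contDiff _ hG.li).continuous.aestronglyMeasurable.sub
        hG.li.aestronglyMeasurable).restrict
    refine le_trans (le_of_eq ?_) (eLpNorm_sub_le (m1 n) (m1 m) le_rfl)
    rw [sub_sub_sub_cancel_right]
  rw [Metric.uniformCauchySeqOn_iff]
  intro ε hε
  obtain ⟨N, hN⟩ := eventually_atTop.1
    (t.eventually (gt_mem_nhds (ENNReal.ofReal_pos.2 (half_pos hε))))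
  refine ⟨N, fun m hm n hn x hx => ?_⟩
  rw [ue m x hx, ue n x hx, ← edist_lt_ofReal, edist_eq_enorm_sub, ← add_halves ε,
    ENNReal.ofReal_add (half_pos hε).le (half_pos hε).le]
  exact (b m n x).trans_lt (ENNReal.add_lt_add (hN m hm) (hN n hn))

/-- the limit of the mollifications -/
def lm (μ : Measure E) (f : E → V) (x : E) : V := limUnder atTop fun n => moll μ (stdBump n) f x

theorem SA.pt (h : SA μ e f) (x : E) :
    Tendsto (fun n => moll μ (stdBump n) f x) atTop (𝓝 (lm μ f x)) :=
  ((h.cau isCompact_singleton).cauchySeq rfl).tendsto_limUnder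

theorem SA.lu (h : SA μ e f) :
    TendstoLocallyUniformlyOn (fun n => moll μ (stdBump n) f) (lm μ f) atTop univ := by
  have := FiniteDimensional.proper ℝ E
  exact (tendstoLocallyUniformlyOn_iff_forall_isCompact isOpen_univ).2 fun K _ hK =>
    (h.cau hK).tendstoUniformlyOn_of_tendsto fun x _ => h.pt x

theorem SA.ae (h : SA μ e f) : f =ᵐ[μ] lm μ f := by
  have := FiniteDimensional.proper ℝ E
  have h1 : ∀ R : ℕ, ∀ᵐ x ∂(μ.restrict (closedBall (0 : E) R)), f x = lm μ f x := by
    intro R
    obtain ⟨ns, hns, hae⟩ := (tendstoInMeasure_of_tendsto_eLpNorm one_ne_zero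
      (fun n => (moll_contDiff _ h.li).continuous.aestronglyMeasurable)
      h.li.aestronglyMeasurable.restrict
      (tendsto_moll_loc h.li (isCompact_closedBall (0 : E) R))).exists_seq_tendsto_ae
    filter_upwards [hae] with x hx
    exact tendsto_nhds_unique hx ((h.pt x).comp hns.tendsto_atTop)
  have h2 := (ae_restrict_iUnion_iff (fun R : ℕ => closedBall (0 : E) (R : ℝ)) _).2 h1
  rwa [iUnion_closedBall_nat, Measure.restrict_univ] at h2

theorem SA.cd (n : ℕ) (h : SA μ e f) : ContDiff ℝ n (lm μ f) := by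
  classical
  induction n generalizing f with
  | zero =>
    exact contDiff_zero.2 ((tendstoLocallyUniformlyOn_univ.1 h.lu).continuous
      (Frequently.of_forall fun n => (moll_contDiff _ h.li).continuous))
  | succ n ih =>
    choose g hg hs using h.der
    let Φ : ι → V →L[ℝ] E →L[ℝ] V := fun i =>
      ContinuousLinearMap.smulRightL ℝ E V (LinearMap.toContinuousLinearMap (e.coord i))
    have hT : ∀ T : E →L[ℝ] V, T = ∑ i, Φ i (T (e i)) := fun T => by
      ext v
      conv_lhs => rw [← e.sum_repr v, map_sum]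
      simp [Φ]
    have hl : ∀ s : Finset ι, TendstoLocallyUniformlyOn
        (fun n x => ∑ i ∈ s, Φ i (moll μ (stdBump n) (g i) x))
        (fun x => ∑ i ∈ s, Φ i (lm μ (g i) x)) atTop univ := fun s => by
      induction s using Finset.induction_on with
      | empty => exact fun u hu x _ => ⟨univ, univ_mem, .of_forall fun _ _ _ => refl_mem_uniformity hu⟩
      | insert a s ha ih =>
        simp only [Finset.sum_insert ha]
        exact ((Φ a).uniformContinuous.comp_tendstoLocallyUniformlyOn (hs a).lu).add ih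
    rw [Nat.cast_succ, contDiff_succ_iff_hasFDerivAt]
    refine ⟨fun x => ∑ i, Φ i (lm μ (g i) x),
      ContDiff.sum fun i _ => (Φ i).contDiff.comp (ih (hs i)), fun x =>
      hasFDerivAt_of_tendstoLocallyUniformlyOn isOpen_univ (hl _) (fun n y _ => ?_)
        (fun y _ => h.pt y) (mem_univ x)⟩
    have := ((moll_contDiff (stdBump n) h.li).differentiable (by simp) y).hasFDerivAt
    rw [hT (fderiv ℝ _ y)] at this
    simpa only [fderiv_moll _ (hg _) h.li] using this

end Smo

theorem smo : SMO := by
  intro E _ _ _ _ _ μ _ ι _ e V W _ _ _ _ _ _ f h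
  have := FiniteDimensional.complete ℝ V
  exact ⟨Smo.lm μ f, contDiff_infty.2 fun n => Smo.SA.cd n h, Smo.SA.ae h⟩

end Vale.Agent.P275M
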